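import Vale.Agent.P050M.Core

/-!
# P050: every bipartite graph satisfies Sidorenko's inequality in every totally positive kernel

Measurable kernels on probability spaces.  `homInt E m m' W` is `t(H, W)` for the bipartite graph
`H` with parts `U`, `V` and edge set `E` and the bounded measurable kernel `W : Ω → Ω' → [0, ∞)`.

* Part A: kernels whose `2 × 2` minors are nonnegative when the rows are ordered by `f` and the
  columns by `g` (totally positive of order two).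
* Part B: all kernels of rank at most two.
* Part C: simple bipartite graphs `H` and symmetric kernels, in particular kernels on `[0, 1]`:
  `∏ e ∈ H.edgeFinset, W (x u) (x v)` for `e = uv`.
-/

namespace Vale.Agent.Results.P050.MeasurableKernels

open Finset MeasureTheory Vale.Agent.P050M

theorem result :
    (∀ (Ω Ω' U V : Type) [MeasurableSpace Ω] [MeasurableSpace Ω'] [Fintype U] [Fintype V]
      (E : Finset (U × V)) (m : Measure Ω) (m' : Measure Ω') [IsProbabilityMeasure m]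
      [IsProbabilityMeasure m'] (W : Ω → Ω' → ℝ) (C : ℝ) (f : Ω → ℝ) (g : Ω' → ℝ),
      Measurable (Function.uncurry W) → (∀ x y, 0 ≤ W x y) → (∀ x y, W x y ≤ C) →
      (∀ x x' y y', f x ≤ f x' → g y ≤ g y' → W x y' * W x' y ≤ W x y * W x' y') →
      (∫ q : Ω × Ω', W q.1 q.2 ∂(m.prod m')) ^ E.card ≤ homInt E m m' W) ∧
    (∀ (Ω Ω' U V : Type) [MeasurableSpace Ω] [MeasurableSpace Ω'] [Fintype U] [Fintype V]
      (E : Finset (U × V)) (m : Measure Ω) (m' : Measure Ω') [IsProbabilityMeasure m]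
      [IsProbabilityMeasure m'] (C : ℝ) (f₁ f₂ : Ω → ℝ) (g₁ g₂ : Ω' → ℝ),
      Measurable f₁ → Measurable f₂ → Measurable g₁ → Measurable g₂ →
      (∀ x y, 0 ≤ f₁ x * g₁ y + f₂ x * g₂ y) → (∀ x y, f₁ x * g₁ y + f₂ x * g₂ y ≤ C) →
      (∫ q : Ω × Ω', (f₁ q.1 * g₁ q.2 + f₂ q.1 * g₂ q.2) ∂(m.prod m')) ^ E.card ≤
        homInt E m m' (fun x y => f₁ x * g₁ y + f₂ x * g₂ y)) ∧
    (∀ (Ω B : Type) [MeasurableSpace Ω] [Fintype B] [DecidableEq B] (H : SimpleGraph B)
      [DecidableRel H.Adj], H.Colorable 2 →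
      ∀ (m : Measure Ω) [IsProbabilityMeasure m] (W : Ω → Ω → ℝ) (C : ℝ)
      (hs : ∀ x y, W x y = W y x),
      Measurable (Function.uncurry W) → (∀ x y, 0 ≤ W x y) → (∀ x y, W x y ≤ C) →
      ((∃ f g : Ω → ℝ, ∀ x x' y y', f x ≤ f x' → g y ≤ g y' →
          W x y' * W x' y ≤ W x y * W x' y') ∨
        ∃ f₁ f₂ g₁ g₂ : Ω → ℝ, ∀ x y, W x y = f₁ x * g₁ y + f₂ x * g₂ y) →
      (∫ q : Ω × Ω, W q.1 q.2 ∂(m.prod m)) ^ H.edgeFinset.card ≤
        ∫ x : B → Ω, (∏ e ∈ H.edgeFinset, Sym2.lift ⟨fun u v => W (x u) (x v),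
          fun _ _ => hs _ _⟩ e) ∂(Measure.pi fun _ : B => m)) := by
  classical
  refine ⟨?_, ?_, ?_⟩
  · intro Ω Ω' U V _ _ _ _ E m m' _ _ W C f g hm h0 hC hW
    exact FinalAux.tpm trans_proved E m m' W C f g hm h0 hC hW
  · intro Ω Ω' U V _ _ _ _ E m m' _ _ C f₁ f₂ g₁ g₂ hf₁ hf₂ hg₁ hg₂ h0 hC
    apply FinalAux.rank2m trans_proved E m m' C f₁ f₂ g₁ g₂ _ h0 hC
    exact ((hf₁.comp measurable_fst).mul (hg₁.comp measurable_snd)).add
      ((hf₂.comp measurable_fst).mul (hg₂.comp measurable_snd))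
  · intro Ω B _ _ _ H _ hH m _ W C hs hm h0 hC hW
    obtain ⟨c⟩ := hH
    obtain ⟨E, hE, he⟩ := FinalAux.symm_conv H c m W hs
    rw [he, ← hE]
    rcases hW with ⟨f, g, hW⟩ | ⟨f₁, f₂, g₁, g₂, hW⟩
    · exact FinalAux.tpm trans_proved E m m W C f g hm h0 hC hW
    · obtain rfl : W = fun x y => f₁ x * g₁ y + f₂ x * g₂ y := by
        funext x y
        exact hW x y
      exact FinalAux.rank2m trans_proved E m m C f₁ f₂ g₁ g₂ hm h0 hC

end Vale.Agent.Results.P050.MeasurableKernels
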