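import Vale.Agent.P050.Core
import Vale.Agent.P050.Final

/-!
# P050: every bipartite graph satisfies Sidorenko's inequality in every totally positive kernel

`homDensity E μ ν W` is `t(H, W)` for the bipartite graph `H` with parts `U`, `V` and edge set `E`
(an arbitrary finite set of pairs) and the kernel `W : X → Y → ℝ` on the finite probability spaces
`(X, μ)` and `(Y, ν)`; `∑ a, ∑ b, μ a * ν b * W a b` is the edge density of `W`.

* Part A: kernels whose `2 × 2` minors are nonnegative when the rows are ordered by `f` and the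
  columns by `g` (totally positive of order two).
* Part B: all nonnegative kernels of rank at most two (in particular all two-step kernels).
* Part C: graphs (loops allowed) `R` on a finite nonempty set `A`, counting homomorphisms.
-/

namespace Vale.Agent.Results.P050.TotallyPositiveTargets

open Finset Vale.Agent.P050

theorem result :
    (∀ (X Y U V : Type) [Fintype X] [Fintype Y] [Fintype U] [Fintype V]
      [DecidableEq U] [DecidableEq V] (E : Finset (U × V)) (μ : X → ℝ) (ν : Y → ℝ)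
      (W : X → Y → ℝ) (f : X → ℝ) (g : Y → ℝ),
      (∀ a, 0 ≤ μ a) → (∀ b, 0 ≤ ν b) → ∑ a, μ a = 1 → ∑ b, ν b = 1 → (∀ a b, 0 ≤ W a b) →
      (∀ a a' b b', f a ≤ f a' → g b ≤ g b' → W a b' * W a' b ≤ W a b * W a' b') →
      (∑ a, ∑ b, μ a * ν b * W a b) ^ E.card ≤ homDensity E μ ν W) ∧
    (∀ (X Y U V : Type) [Fintype X] [Fintype Y] [Fintype U] [Fintype V]
      [DecidableEq U] [DecidableEq V] (E : Finset (U × V)) (μ : X → ℝ) (ν : Y → ℝ)
      (f₁ f₂ : X → ℝ) (g₁ g₂ : Y → ℝ),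
      (∀ a, 0 ≤ μ a) → (∀ b, 0 ≤ ν b) → ∑ a, μ a = 1 → ∑ b, ν b = 1 →
      (∀ a b, 0 ≤ f₁ a * g₁ b + f₂ a * g₂ b) →
      (∑ a, ∑ b, μ a * ν b * (f₁ a * g₁ b + f₂ a * g₂ b)) ^ E.card ≤
        homDensity E μ ν (fun a b => f₁ a * g₁ b + f₂ a * g₂ b)) ∧
    (∀ (A B : Type) [Fintype A] [Nonempty A] [Fintype B] (H : SimpleGraph B), H.Colorable 2 →
      ∀ (R : A → A → Prop), (∀ a b, R a b → R b a) →
      ∀ (f g : A → ℝ),
      (∀ a a' b b', f a ≤ f a' → g b ≤ g b' → R a b' → R a' b → R a b ∧ R a' b') →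
      ((Nat.card {p : A × A // R p.1 p.2} : ℝ) / (Nat.card A : ℝ) ^ 2) ^ Nat.card H.edgeSet ≤
        (Nat.card {φ : B → A // ∀ u v, H.Adj u v → R (φ u) (φ v)} : ℝ) /
          (Nat.card A : ℝ) ^ Nat.card B) := by
  refine ⟨?_, ?_, ?_⟩
  · intro X Y U V _ _ _ _ _ _ E μ ν W f g hμ hν hμ1 hν1 hW hT
    exact FinalAux.tp main_proved E μ ν W f g hμ hν hμ1 hν1 hW hT
  · intro X Y U V _ _ _ _ _ _ E μ ν f₁ f₂ g₁ g₂ hμ hν hμ1 hν1 hW
    exact FinalAux.rank2 main_proved E μ ν f₁ f₂ g₁ g₂ hμ hν hμ1 hν1 hW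
  · intro A B _ _ _ H hH R hR f g hT
    exact FinalAux.graph main_proved H hH R hR f g hT

end Vale.Agent.Results.P050.TotallyPositiveTargets
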